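import Vale.Agent.P181.PL.Defs
import Vale.Agent.P181.H539.UpStmt
import Vale.Agent.P181.H583.Upper
import Vale.Agent.P181.H777.Tails

set_option autoImplicit false

/-!
# P181, PL: the direct assembly
-/

namespace Vale.Agent.P181.PL6

open Vale.Agent.P181.T4 (HW ex low ex_of_lt ex_anti low_anti)
open Vale.Agent.P181.H280 (plethMult)
open Vale.Agent.P181.H463 (gt)

lemma eq_pad {m N : ℕ} {lam : Fin (m + 1) → ℕ} (h : ∑ i, lam i = N) :
    lam = H777.pad N (fun i : Fin m => lam i.succ) := by
  funext i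
  refine Fin.cases ?_ (fun i => ?_) i
  · rw [H777.pad_zero]
    rw [Fin.sum_univ_succ] at h
    omega
  · rfl

/-- Monotonicity in both exponents; the rows below the first one are fixed. -/
theorem pleth_mono {a b c d n : ℕ} {lam nu : Fin n → ℕ} (hn : 1 ≤ n) (hlam : ∑ i, lam i = a * b)
    (hnu : ∑ i, nu i = c * d) (hac : a ≤ c) (hbd : b ≤ d)
    (h : ∀ i : Fin n, 1 ≤ (i : ℕ) → nu i = lam i) : plethMult a b n lam ≤ plethMult c d n nu := by
  obtain ⟨m, rfl⟩ : ∃ m, n = m + 1 := ⟨n - 1, by omega⟩
  have h1 := eq_pad hlam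
  have h2 := eq_pad hnu
  have h3 : (fun i : Fin m => nu i.succ) = fun i : Fin m => lam i.succ := by
    funext i
    exact h i.succ (by rw [Fin.val_succ]; omega)
  rw [h3] at h2
  have h4 := (H777.F_inner_mono a hbd (fun i : Fin m => lam i.succ)).trans
    (H777.F_outer_mono hac d (fun i : Fin m => lam i.succ))
  unfold H777.F at h4
  rw [← h1, ← h2] at h4
  exact h4

/-- The trivial upper bound: `R` rows are free, tableaux below them. -/
theorem pleth_up (a b : ℕ) {n R : ℕ} {lam : Fin n → ℕ} (hlam : Antitone lam) (hR : R ≤ n) :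
    plethMult a b n lam ≤ (ex lam 0 + 1) ^ (a * R) * gt (n - R) a (low R lam) := by
  have h1 := T4.plethMult_le_pow (a := a) (b := b) (c := n) (R := R) (m := n - R) (by omega) lam
    (ex lam 0) (fun i _ => by
      have := ex_anti hlam (Nat.zero_le (i : ℕ))
      rwa [ex_of_lt lam i.2] at this)
  have h2 : (fun i : Fin (n - R) => lam ⟨R + i, by have := i.isLt; omega⟩) = low R lam := by
    funext i
    have := i.isLt
    rw [low, ex_of_lt lam (by omega)]
  rw [h2] at h1
  have h3 := H539.up_stmt (n - R) a (low R lam) (low_anti hlam R)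
  rw [mul_comm R a] at h1
  exact h1.trans (Nat.mul_le_mul_left _ h3)

/-- **(P6)** -/
theorem asmD : PL.AsmD := by
  intro a b n R a0 b0 lam nu hlam hsum hn hR hnu ha hb h hle
  refine ((pleth_up a b hlam hR).trans hle).trans ?_
  refine pleth_mono hn (a := b0) (b := a0) (c := b) (d := a) (lam := nu) (nu := lam) ?_ ?_ hb ha ?_
  · rw [hnu, mul_comm]
  · rw [hsum, mul_comm]
  · intro i hi
    exact (h i hi).symm

end Vale.Agent.P181.PL6
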